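import Vale.Agent.P181.H965.Defs

/-!
Block [CNT]: commuting degree lowering operators with trivial common kernel are coregular, by
counting monomials.
-/

namespace Vale.Agent.P181.H946

open MvPolynomial Module

section Dim

variable (K : Type) [Field K] (σ : Type) [Fintype σ]

lemma finite_degree (n : ℕ) : Finite {d : σ →₀ ℕ // d.degree = n} := by
  classical
  refine Finite.of_injective (β := σ → Fin (n + 1))
    (fun d i => ⟨d.1 i, Nat.lt_succ_of_le ((Finsupp.le_degree i d.1).trans d.2.le)⟩) ?_
  intro d e h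
  apply Subtype.ext
  ext i
  have := congrFun h i
  exact congrArg Fin.val this

instance finite_homog (n : ℕ) : Module.Finite K (homogeneousSubmodule σ K n) := by
  rw [homogeneousSubmodule_eq_finsupp_supported]
  have := finite_degree σ n
  have h2 : Finite {d : σ →₀ ℕ | d.degree = n} := this
  exact Module.Finite.equiv (AddMonoidAlgebra.supportedEquivFinsupp (R := K) (S := K)
    {d : σ →₀ ℕ | d.degree = n}).symm

lemma card_degree (n : ℕ) :
    Nat.card {d : σ →₀ ℕ // d.degree = n} = (Fintype.card σ).multichoose n := by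
  classical
  rw [← Sym.card_sym_eq_multichoose, ← Nat.card_eq_fintype_card]
  refine Nat.card_congr ((Sym.equivNatSum σ n).trans (Equiv.subtypeEquivRight fun P => ?_)).symm
  rfl

lemma finrank_homog (n : ℕ) :
    finrank K (homogeneousSubmodule σ K n) = (Fintype.card σ).multichoose n := by
  classical
  rw [homogeneousSubmodule_eq_finsupp_supported]
  have h1 := finite_degree σ n
  have h2 : Finite {d : σ →₀ ℕ | d.degree = n} := h1
  have : Fintype {d : σ →₀ ℕ | d.degree = n} := Fintype.ofFinite _
  rw [(AddMonoidAlgebra.supportedEquivFinsupp (R := K) (S := K)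
    {d : σ →₀ ℕ | d.degree = n}).finrank_eq,
    Module.finrank_finsupp_self, ← card_degree, ← Nat.card_eq_fintype_card]
  rfl

end Dim

section Count

variable {K : Type} [Field K] {d : ℕ}

/-- The homogeneous polynomials of degree `m` killed by `t l` for `k ≤ l`. -/
noncomputable def U (t : Fin d → Module.End K (MvPolynomial (Fin d) K)) (k m : ℕ) :
    Submodule K (MvPolynomial (Fin d) K) where
  carrier := {f | f.IsHomogeneous m ∧ ∀ l : Fin d, k ≤ l.val → t l f = 0}
  add_mem' := fun {f g} hf hg => ⟨hf.1.add hg.1, fun l hl => by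
    rw [map_add, hf.2 l hl, hg.2 l hl, add_zero]⟩
  zero_mem' := ⟨isHomogeneous_zero _ _ _, fun l _ => map_zero _⟩
  smul_mem' := fun c f hf => ⟨by
    rw [smul_eq_C_mul]
    exact hf.1.C_mul c, fun l hl => by rw [map_smul, hf.2 l hl, smul_zero]⟩

variable {t : Fin d → Module.End K (MvPolynomial (Fin d) K)}

lemma mem_U {k m : ℕ} {f : MvPolynomial (Fin d) K} :
    f ∈ U t k m ↔ f.IsHomogeneous m ∧ ∀ l : Fin d, k ≤ l.val → t l f = 0 := Iff.rfl

lemma U_le (k m : ℕ) : U t k m ≤ homogeneousSubmodule (Fin d) K m :=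
  fun _ hf => (mem_homogeneousSubmodule _ _).2 hf.1

instance finite_U (k m : ℕ) : Module.Finite K (U t k m) :=
  Submodule.finiteDimensional_of_le (U_le k m)

lemma U_top (m : ℕ) : U t d m = homogeneousSubmodule (Fin d) K m := by
  ext f
  rw [mem_homogeneousSubmodule, mem_U]
  refine ⟨fun h => h.1, fun h => ⟨h, fun l hl => ?_⟩⟩
  have := l.2
  omega

lemma finrank_U_top (m : ℕ) : finrank K (U t d m) = d.multichoose m := by
  rw [U_top, finrank_homog, Fintype.card_fin]

lemma finrank_U_zero (ht : ∀ n f, f.IsHomogeneous (n + 1) → (∀ i, t i f = 0) → f = 0) (m : ℕ) :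
    finrank K (U t 0 m) ≤ (0 : ℕ).multichoose m := by
  cases m with
  | zero =>
    rw [Nat.multichoose_zero_right]
    have h1 := Submodule.finrank_mono (U_le (t := t) 0 0)
    rw [finrank_homog, Nat.multichoose_zero_right] at h1
    exact h1
  | succ m =>
    have h1 : U t 0 (m + 1) = ⊥ := by
      rw [eq_bot_iff]
      intro f hf
      rw [Submodule.mem_bot]
      exact ht m f hf.1 fun i => hf.2 i (Nat.zero_le _)
    rw [h1, finrank_bot]
    exact Nat.zero_le _

variable (hc : ∀ i j, Commute (t i) (t j))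
  (hd : ∀ i n f, f.IsHomogeneous (n + 1) → (t i f).IsHomogeneous n)

include hc hd in
/-- the operator `t k` from `U (k+1) (m+1)` to `U (k+1) m` -/
lemma t_mem {k : Fin d} {m : ℕ} {f : MvPolynomial (Fin d) K} (hf : f ∈ U t (k.val + 1) (m + 1)) :
    t k f ∈ U t (k.val + 1) m := by
  refine ⟨hd k m f hf.1, fun l hl => ?_⟩
  have h1 : (t l * t k) f = (t k * t l) f := by rw [(hc l k).eq]
  rw [Module.End.mul_apply, Module.End.mul_apply, hf.2 l hl, map_zero] at h1
  exact h1

/-- `t k` as a linear map -/
noncomputable def tr (hc : ∀ i j, Commute (t i) (t j))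
    (hd : ∀ i n f, f.IsHomogeneous (n + 1) → (t i f).IsHomogeneous n) (k : Fin d) (m : ℕ) :
    U t (k.val + 1) (m + 1) →ₗ[K] U t (k.val + 1) m :=
  ((t k).domRestrict _).codRestrict _ fun f => t_mem hc hd f.2

lemma tr_apply (k : Fin d) (m : ℕ) (f : U t (k.val + 1) (m + 1)) :
    (tr hc hd k m f : MvPolynomial (Fin d) K) = t k f := rfl

lemma finrank_ker_tr (k : Fin d) (m : ℕ) :
    finrank K (LinearMap.ker (tr hc hd k m)) = finrank K (U t k.val (m + 1)) := by
  have h1 : (LinearMap.ker (tr hc hd k m)) =
      (U t k.val (m + 1)).comap (U t (k.val + 1) (m + 1)).subtype := by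
    ext f
    rw [LinearMap.mem_ker, Submodule.mem_comap, Submodule.subtype_apply, mem_U, Subtype.ext_iff,
      tr_apply]
    refine ⟨fun h => ⟨f.2.1, fun l hl => ?_⟩, fun h => h.2 k le_rfl⟩
    rcases Nat.eq_or_lt_of_le hl with h2 | h2
    · have : l = k := Fin.ext h2.symm
      rw [this]
      exact h
    · exact f.2.2 l h2
  have h2 : U t k.val (m + 1) ≤ U t (k.val + 1) (m + 1) :=
    fun f hf => ⟨hf.1, fun l hl => hf.2 l (by omega)⟩
  rw [h1]
  exact (Submodule.comapSubtypeEquivOfLe h2).finrank_eq

lemma finrank_step (k : Fin d) (m : ℕ) :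
    finrank K (LinearMap.range (tr hc hd k m)) + finrank K (U t k.val (m + 1)) =
      finrank K (U t (k.val + 1) (m + 1)) := by
  rw [← finrank_ker_tr hc hd k m]
  exact (tr hc hd k m).finrank_range_add_finrank_ker

include hc hd in
lemma finrank_U_le (ht : ∀ n f, f.IsHomogeneous (n + 1) → (∀ i, t i f = 0) → f = 0) :
    ∀ (k : ℕ), k ≤ d → ∀ m, finrank K (U t k m) ≤ k.multichoose m := by
  intro k
  induction k with
  | zero => intro _ m; exact finrank_U_zero ht m
  | succ k ih =>
    intro hk m
    induction m with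
    | zero =>
      rw [Nat.multichoose_zero_right]
      have h1 := Submodule.finrank_mono (U_le (t := t) (k + 1) 0)
      rw [finrank_homog, Nat.multichoose_zero_right] at h1
      exact h1
    | succ m ihm =>
      have h1 := finrank_step hc hd ⟨k, hk⟩ m
      have h2 := Submodule.finrank_le (LinearMap.range (tr hc hd ⟨k, hk⟩ m))
      have h3 := ih (by omega) (m + 1)
      rw [Nat.multichoose_succ_succ]
      change finrank K (LinearMap.range (tr hc hd ⟨k, hk⟩ m)) + finrank K (U t k (m + 1)) =
        finrank K (U t (k + 1) (m + 1)) at h1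
      change finrank K (LinearMap.range (tr hc hd ⟨k, hk⟩ m)) ≤ finrank K (U t (k + 1) m) at h2
      omega

include hc hd in
lemma finrank_U_eq (h0 : ∀ i f, f.IsHomogeneous 0 → t i f = 0)
    (ht : ∀ n f, f.IsHomogeneous (n + 1) → (∀ i, t i f = 0) → f = 0) :
    ∀ (j k : ℕ), k + j = d → ∀ m, finrank K (U t k m) = k.multichoose m := by
  intro j
  induction j with
  | zero =>
    intro k hk m
    rw [add_zero] at hk
    subst hk
    exact finrank_U_top m
  | succ j ih =>
    intro k hk m
    have hkd : k < d := by omega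
    cases m with
    | zero =>
      refine le_antisymm (finrank_U_le hc hd ht k hkd.le 0) ?_
      -- the constants
      have h1 : U t k 0 = homogeneousSubmodule (Fin d) K 0 := by
        ext f
        rw [mem_homogeneousSubmodule, mem_U]
        exact ⟨fun h => h.1, fun h => ⟨h, fun l _ => h0 l f h⟩⟩
      rw [h1, finrank_homog, Nat.multichoose_zero_right, Nat.multichoose_zero_right]
    | succ m =>
      have h1 := finrank_step hc hd ⟨k, hkd⟩ m
      have h2 := Submodule.finrank_le (LinearMap.range (tr hc hd ⟨k, hkd⟩ m))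
      change finrank K (LinearMap.range (tr hc hd ⟨k, hkd⟩ m)) + finrank K (U t k (m + 1)) =
        finrank K (U t (k + 1) (m + 1)) at h1
      change finrank K (LinearMap.range (tr hc hd ⟨k, hkd⟩ m)) ≤ finrank K (U t (k + 1) m) at h2
      have h3 := ih (k + 1) (by omega) (m + 1)
      have h4 := ih (k + 1) (by omega) m
      rw [Nat.multichoose_succ_succ] at h3
      have h5 := finrank_U_le hc hd ht k hkd.le (m + 1)
      omega

end Count

theorem cnt (K : Type) [Field K] (d : ℕ) : H965.CntStmt K d := by
  intro t hc hd h0 ht k n f hf hkf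
  have hf' : f ∈ U t (k.val + 1) n := ⟨hf, fun l hl => hkf l (by
    rw [Fin.lt_def]
    omega)⟩
  have h1 := finrank_step hc hd k n
  have h2 := Submodule.finrank_le (LinearMap.range (tr hc hd k n))
  have h3 := finrank_U_eq hc hd h0 ht (d - (k.val + 1)) (k.val + 1) (by have := k.2; omega) (n + 1)
  have h4 := finrank_U_eq hc hd h0 ht (d - (k.val + 1)) (k.val + 1) (by have := k.2; omega) n
  have h5 := finrank_U_eq hc hd h0 ht (d - k.val) k.val (by have := k.2; omega) (n + 1)
  rw [Nat.multichoose_succ_succ] at h3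
  have h6 : LinearMap.range (tr hc hd k n) = ⊤ :=
    Submodule.eq_top_of_finrank_eq (by omega)
  obtain ⟨g, hg⟩ := LinearMap.range_eq_top.1 h6 ⟨f, hf'⟩
  refine ⟨g, g.2.1, fun l hl => g.2.2 l (by
    rw [Fin.lt_def] at hl
    omega), ?_⟩
  exact congrArg Subtype.val hg

end Vale.Agent.P181.H946
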